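import Vale.Agent.P011.E6I.H68.Fk
import Vale.Agent.P011.D4.IF.Asm
import Vale.Agent.P011.D4.IF.RevTop

/-!
The pointwise stabilizer of a cubic field in the group of type `E₆` over the ground field is
a simple group.
-/

open NumberField Polynomial

namespace Vale.Agent.P011.E6I

open Vale.Agent.P011.MPQ Vale.Agent.P011.D4 Vale.Agent.P011.D4.Oct Vale.Agent.P011.E6 Alb

namespace H68

section hom

variable {k E M : Type} [Field k] [Field E] [Field M] [Algebra k E] [Algebra k M] [Algebra E M]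
  {ρ : M ≃ₐ[k] M} {I : Set (M ≃ₐ[k] M)} {a b c : kˣ} {p0 p1 p2 : k} {x : Fin 3 → M}

/-- The stabilizer is a quotient of the trialitarian group. -/
theorem exists_hom [CharZero k] (hU : SetU k E M ρ I) (hx : Cjg ρ I p0 p1 p2 x) :
    ∃ Λ : TriU ρ I a b c →* FixK p0 p1 p2 a b c, Function.Surjective Λ ∧
      ∀ T X, Ph x ((Λ T).1 X) = hat ρ T.1 (Ph x X) := by
  have hinj := Ph_injective (a := a) (b := b) (c := c) hx
  choose f hf hf' using fun T : TriU ρ I a b c => exists_g hU hx T.2
  have huniq : ∀ (g g' : FixK p0 p1 p2 a b c), (∀ X, Ph x (g.1 X) = Ph x (g'.1 X)) → g = g' :=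
    fun g g' h => Subtype.ext (LinearEquiv.ext fun X => hinj (h X))
  refine ⟨{ toFun := fun T => ⟨f T, hf T⟩, map_one' := huniq _ _ fun X => ?_,
            map_mul' := fun T T' => huniq _ _ fun X => ?_ }, fun g => ?_, hf'⟩
  · change Ph x (f 1 X) = Ph x X
    rw [hf']
    exact hat_one hU.r3 _
  · change Ph x (f (T * T') X) = Ph x (f T (f T' X))
    rw [hf', hf', hf']
    exact hat_mul hU.r3 _ _ _
  · obtain ⟨T, hT, h⟩ := exists_T hU hx g.2
    refine ⟨⟨T, hT⟩, huniq _ _ fun X => ?_⟩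
    rw [h]
    exact hf' ⟨T, hT⟩ X

theorem hat_of_one (hρ : ∀ m, ρ (ρ (ρ m)) = m) {T : OctL M a b c ≃ₗ[M] OctL M a b c}
    (hT : T ∈ Tri ρ a b c) (h1 : T 1 = 1) : (∀ x, T (star x) = star (T x)) ∧
      (∀ x y, bil (T x) (T y) = bil x y) ∧ ∀ Y, hat ρ T Y = omapA T Y := by
  have hb := bil_of_norm' (norm_tri hρ hT)
  have hs : ∀ x, T (star x) = star (T x) := fun x => by
    rw [star_eq, star_eq, map_sub, map_smul, h1]
    congr 2
    rw [← hb x 1, h1]
  have hr : ∀ x, T (omap ρ x) = omap ρ (T x) := fun x => by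
    have h2 := hT (star x) 1
    rw [tri, tri, star_star, star_one, omap_one, omap_one, mul_one, h1, star_one, omap_one,
      omap_one, mul_one, hs, star_star] at h2
    exact h2
  refine ⟨hs, hb, fun Y => ?_⟩
  apply Alb.ext
  · rfl
  · rfl
  · rfl
  · rfl
  · change omap ρ (omap ρ (T (omap ρ Y.x2))) = T Y.x2
    rw [hr, Orb.omap_cube hρ]
  · change omap ρ (T (omap ρ (omap ρ Y.x3))) = T Y.x3
    rw [← hr, Orb.omap_cube hρ]

/-- The automorphisms of the octonion algebra. -/
theorem hat_aut (hU : SetU k E M ρ I) {e : AutC a b c →* TriU ρ I a b c} (he : IsExtU ρ I e)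
    (f : AutC a b c) (X : Alb a b c) : hat ρ (e f).1 (Ph x X) = Ph x (omapA f.1 X) := by
  have h1 : (e f).1 1 = 1 := by
    have h2 := he f 1
    have h3 : f.1 1 = 1 := by
      have h4 := f.2 1 1
      have h5 : f.1 (f.1.symm 1) = 1 := f.1.apply_symm_apply 1
      have h6 := f.2 1 (f.1.symm 1)
      rw [one_mul, h5, mul_one] at h6
      exact h6.symm
    rw [h3, oup_one] at h2
    exact h2
  obtain ⟨hs, hb, hh⟩ := hat_of_one hU.r3 (e f).2.1 h1
  rw [hh]
  have h3 := omapA_cj ((e f).1 : OctL M a b c →ₗ[M] OctL M a b c) h1 hs hb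
    (Matrix.vandermonde x) (aup M X)
  change omapA (e f).1 (cj (Matrix.vandermonde x) (aup M X)) = cj _ (aup M (omapA f.1 X))
  refine h3.trans ?_
  congr 1
  apply Alb.ext
  · rfl
  · rfl
  · rfl
  · exact he f _
  · exact he f _
  · exact he f _

end hom

section tower

variable {k L M : Type} [Field k] [Field L] [Field M] [Algebra k L] [Algebra k M] [Algebra L M]
  [IsScalarTower k L M]

/-- The theorem, for a given normal closure. -/
theorem simple_tower [NumberField k] [FiniteDimensional k M] [IsNormalClosure k L M]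
    (h3 : Module.finrank k L = 3) {a b c : kˣ} (hdiv : Division a b c) {p0 p1 p2 : k} {θ : L}
    (hθ : ∀ t : k, algebraMap k L t ≠ θ)
    (hp : θ ^ 3 + algebraMap k L p2 * θ ^ 2 + algebraMap k L p1 * θ + algebraMap k L p0 = 0)
    (N : Subgroup (FixK p0 p1 p2 a b c)) (hN : N.Normal) : N = ⊥ ∨ N = ⊤ := by
  have hM : NumberField M := NumberField.of_module_finite k M
  obtain ⟨ρ, hρ, h1⟩ := exists_rho (k := k) (L := L) (M := M) h3
  obtain ⟨E, hU⟩ := Gl.exists_setU (L := L) h3 hρ h1
  have hE : NumberField E := NumberField.of_module_finite k E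
  obtain ⟨x, hx⟩ := exists_cjg hU hθ hp
  obtain ⟨Λ, hΛ, -⟩ := exists_hom (a := a) (b := b) (c := c) hU hx
  rcases IF.triU_simple hU hdiv (N.comap Λ) (hN.comap Λ) with h | h
  · left
    rw [eq_bot_iff]
    intro g hg
    obtain ⟨T, rfl⟩ := hΛ g
    have h2 : T ∈ N.comap Λ := hg
    rw [h, Subgroup.mem_bot] at h2
    rw [h2, map_one]
    exact one_mem _
  · right
    rw [eq_top_iff]
    intro g _
    obtain ⟨T, rfl⟩ := hΛ g
    have h2 : T ∈ N.comap Λ := h ▸ Subgroup.mem_top T
    exact h2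

/-- The variant with the automorphisms of the octonion algebra. -/
theorem aut_tower [NumberField k] [FiniteDimensional k M] [IsNormalClosure k L M]
    (h3 : Module.finrank k L = 3) {a b c : kˣ} {p0 p1 p2 : k} {θ : L}
    (hθ : ∀ t : k, algebraMap k L t ≠ θ)
    (hp : θ ^ 3 + algebraMap k L p2 * θ ^ 2 + algebraMap k L p1 * θ + algebraMap k L p0 = 0)
    (f : AutC a b c) :
    ∃ g : FixK p0 p1 p2 a b c, ∀ X : Alb a b c, g.1 X = omapA f.1 X := by
  have hM : NumberField M := NumberField.of_module_finite k M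
  obtain ⟨ρ, hρ, h1⟩ := exists_rho (k := k) (L := L) (M := M) h3
  obtain ⟨E, hU⟩ := Gl.exists_setU (L := L) h3 hρ h1
  obtain ⟨x, hx⟩ := exists_cjg hU hθ hp
  obtain ⟨Λ, -, hΛ'⟩ := exists_hom (a := a) (b := b) (c := c) hU hx
  obtain ⟨e, he⟩ := H24.exists_ext ρ (Inv k L M) a b c
  exact ⟨Λ (e f), fun X => Ph_injective hx (by rw [hΛ', hat_aut hU he])⟩

/-- The normal subgroups which contain the automorphisms of the octonion algebra. -/
theorem of_aut_tower [NumberField k] [FiniteDimensional k M] [IsNormalClosure k L M]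
    (h3 : Module.finrank k L = 3) {a b c : kˣ} (hdiv : Division a b c) {p0 p1 p2 : k} {θ : L}
    (hθ : ∀ t : k, algebraMap k L t ≠ θ)
    (hp : θ ^ 3 + algebraMap k L p2 * θ ^ 2 + algebraMap k L p1 * θ + algebraMap k L p0 = 0)
    (N : Subgroup (FixK p0 p1 p2 a b c)) (hN : N.Normal)
    (hA : ∀ g : FixK p0 p1 p2 a b c, (∃ f : AutC a b c, ∀ X, g.1 X = omapA f.1 X) → g ∈ N) :
    N = ⊤ := by
  have hM : NumberField M := NumberField.of_module_finite k M
  obtain ⟨ρ, hρ, h1⟩ := exists_rho (k := k) (L := L) (M := M) h3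
  obtain ⟨E, hU⟩ := Gl.exists_setU (L := L) h3 hρ h1
  have hE : NumberField E := NumberField.of_module_finite k E
  obtain ⟨x, hx⟩ := exists_cjg hU hθ hp
  obtain ⟨Λ, hΛ, hΛ'⟩ := exists_hom (a := a) (b := b) (c := c) hU hx
  obtain ⟨e, he⟩ := H24.exists_ext ρ (Inv k L M) a b c
  have h := IF.top_of_ext hU hdiv he (N.comap Λ) (hN.comap Λ) fun f =>
    hA _ ⟨f, fun X => Ph_injective hx (by rw [hΛ', hat_aut hU he])⟩
  rw [eq_top_iff]
  intro g _
  obtain ⟨T, rfl⟩ := hΛ g
  have h2 : T ∈ N.comap Λ := h ▸ Subgroup.mem_top T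
  exact h2

end tower

/-- The data of the field generated by a root of an irreducible cubic polynomial. -/
theorem exists_tower {k : Type} [Field k] [NumberField k] {p0 p1 p2 : k}
    (hirr : Irreducible (X ^ 3 + C p2 * X ^ 2 + C p1 * X + C p0 : k[X])) {P : Prop}
    (h : ∀ (L M : Type) [Field L] [Field M] [Algebra k L] [Algebra k M] [Algebra L M]
      [IsScalarTower k L M] [FiniteDimensional k M] [IsNormalClosure k L M],
      Module.finrank k L = 3 → ∀ θ : L, (∀ t : k, algebraMap k L t ≠ θ) →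
      θ ^ 3 + algebraMap k L p2 * θ ^ 2 + algebraMap k L p1 * θ + algebraMap k L p0 = 0 → P) :
    P := by
  set p : k[X] := X ^ 3 + C p2 * X ^ 2 + C p1 * X + C p0 with hp
  have hdeg : p.natDegree = 3 := by
    rw [hp]
    compute_degree!
  have : Fact (Irreducible p) := ⟨hirr⟩
  have hfin : FiniteDimensional k (AdjoinRoot p) := (AdjoinRoot.powerBasis hirr.ne_zero).finite
  have h3 : Module.finrank k (AdjoinRoot p) = 3 := by
    rw [(AdjoinRoot.powerBasis hirr.ne_zero).finrank, AdjoinRoot.powerBasis_dim, hdeg]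
  have hroot : Polynomial.aeval (AdjoinRoot.root p) p = 0 := by
    rw [AdjoinRoot.aeval_eq, AdjoinRoot.mk_self]
  have hθ : ∀ t : k, algebraMap k (AdjoinRoot p) t ≠ AdjoinRoot.root p := by
    intro t ht
    rw [← ht, Polynomial.aeval_algebraMap_apply] at hroot
    have h1 : p.IsRoot t := by
      have h2 : algebraMap k (AdjoinRoot p) (Polynomial.aeval t p) =
          algebraMap k (AdjoinRoot p) 0 := by rw [hroot, map_zero]
      have h4 := (algebraMap k (AdjoinRoot p)).injective h2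
      rwa [Polynomial.coe_aeval_eq_eval] at h4
    have h5 := Polynomial.degree_eq_one_of_irreducible_of_root hirr h1
    rw [Polynomial.degree_eq_natDegree hirr.ne_zero, hdeg] at h5
    norm_num at h5
  have hp' : (AdjoinRoot.root p) ^ 3 + algebraMap k _ p2 * (AdjoinRoot.root p) ^ 2 +
      algebraMap k _ p1 * AdjoinRoot.root p + algebraMap k _ p0 = 0 := by
    have h := hroot
    conv at h =>
      lhs
      arg 2
      rw [hp]
    simpa using h
  have hac : IsAlgClosure k (AlgebraicClosure (AdjoinRoot p)) :=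
    ⟨inferInstance, Algebra.IsAlgebraic.trans k (AdjoinRoot p) _⟩
  have hn : Normal k (AlgebraicClosure (AdjoinRoot p)) := IsAlgClosure.normal k _
  have hne : Nonempty (AdjoinRoot p →ₐ[k] AlgebraicClosure (AdjoinRoot p)) :=
    ⟨IsScalarTower.toAlgHom k _ _⟩
  exact h (AdjoinRoot p)
    (IntermediateField.normalClosure k (AdjoinRoot p) (AlgebraicClosure (AdjoinRoot p)))
    h3 _ hθ hp'

end H68

/-- **The stabilizer of a cubic field is a simple group.** -/
theorem fixK_simple {k : Type} [Field k] [NumberField k] {a b c : kˣ} (hdiv : Division a b c)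
    {p0 p1 p2 : k} (hirr : Irreducible (X ^ 3 + C p2 * X ^ 2 + C p1 * X + C p0 : k[X]))
    (N : Subgroup (FixK p0 p1 p2 a b c)) (hN : N.Normal) : N = ⊥ ∨ N = ⊤ :=
  H68.exists_tower hirr fun L M _ _ _ _ _ _ _ _ h3 _ hθ hp =>
    H68.simple_tower (L := L) (M := M) h3 hdiv hθ hp N hN

/-- The normal subgroups of the stabilizer which contain the automorphisms of the octonion
algebra. -/
theorem fixK_of_aut {k : Type} [Field k] [NumberField k] {a b c : kˣ} (hdiv : Division a b c)
    {p0 p1 p2 : k} (hirr : Irreducible (X ^ 3 + C p2 * X ^ 2 + C p1 * X + C p0 : k[X]))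
    (N : Subgroup (FixK p0 p1 p2 a b c)) (hN : N.Normal)
    (hA : ∀ g : FixK p0 p1 p2 a b c, (∃ f : AutC a b c, ∀ X, g.1 X = omapA f.1 X) → g ∈ N) :
    N = ⊤ :=
  H68.exists_tower hirr fun L M _ _ _ _ _ _ _ _ h3 _ hθ hp =>
    H68.of_aut_tower (L := L) (M := M) h3 hdiv hθ hp N hN hA

/-- The automorphisms of the octonion algebra belong to the stabilizer of the cubic field. -/
theorem fixK_aut {k : Type} [Field k] [NumberField k] {a b c : kˣ}
    {p0 p1 p2 : k} (hirr : Irreducible (X ^ 3 + C p2 * X ^ 2 + C p1 * X + C p0 : k[X]))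
    (f : AutC a b c) :
    ∃ g : FixK p0 p1 p2 a b c, ∀ X : Alb a b c, g.1 X = omapA f.1 X :=
  H68.exists_tower hirr fun L M _ _ _ _ _ _ _ _ h3 _ hθ hp =>
    H68.aut_tower (L := L) (M := M) h3 hθ hp f

end Vale.Agent.P011.E6I
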