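import Vale.Agent.P011.E6I.Cj

/-!
The pointwise stabilizer of the cubic field generated by a companion matrix, inside the space of
hermitian matrices over octonions.
-/

open Matrix

namespace Vale.Agent.P011.E6I

open Vale.Agent.P011.MPQ Vale.Agent.P011.D4 Vale.Agent.P011.D4.Oct Vale.Agent.P011.E6

section fixk

variable {F : Type} [Field F]

/-- The companion matrix of `X ^ 3 + p2 * X ^ 2 + p1 * X + p0`. -/
def Mp (p0 p1 p2 : F) : Matrix (Fin 3) (Fin 3) F := !![0, 0, -p0; 1, 0, -p1; 0, 1, -p2]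

/-- The first symmetric matrix of the frame. -/
def S0 (p1 p2 : F) : Matrix (Fin 3) (Fin 3) F := !![p1, p2, 1; p2, 1, 0; 1, 0, 0]

/-- The second symmetric matrix of the frame. -/
def S1 (p0 p2 : F) : Matrix (Fin 3) (Fin 3) F := !![-p0, 0, 0; 0, p2, 1; 0, 1, 0]

/-- The third symmetric matrix of the frame. -/
def S2 (p0 p1 : F) : Matrix (Fin 3) (Fin 3) F := !![0, -p0, 0; -p0, -p1, 0; 0, 0, 1]

theorem Mp_mul_S0 (p0 p1 p2 : F) : Mp p0 p1 p2 * S0 p1 p2 = S1 p0 p2 := by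
  ext i j
  fin_cases i <;> fin_cases j <;> simp [Mp, S0, S1, Matrix.mul_apply, Fin.sum_univ_three]

theorem Mp_mul_S1 (p0 p1 p2 : F) : Mp p0 p1 p2 * S1 p0 p2 = S2 p0 p1 := by
  ext i j
  fin_cases i <;> fin_cases j <;> simp [Mp, S1, S2, Matrix.mul_apply, Fin.sum_univ_three]

theorem S0_transpose (p1 p2 : F) : (S0 p1 p2)ᵀ = S0 p1 p2 := by
  ext i j
  fin_cases i <;> fin_cases j <;> rfl

theorem S1_transpose (p0 p2 : F) : (S1 p0 p2)ᵀ = S1 p0 p2 := by
  ext i j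
  fin_cases i <;> fin_cases j <;> rfl

theorem S2_transpose (p0 p1 : F) : (S2 p0 p1)ᵀ = S2 p0 p1 := by
  ext i j
  fin_cases i <;> fin_cases j <;> rfl

/-- The group of the linear maps which preserve the cubic norm and fix the three symmetric
matrices, hence the cubic field which they span. -/
def FixK (p0 p1 p2 : F) (a b c : Fˣ) : Subgroup (Alb a b c ≃ₗ[F] Alb a b c) where
  carrier := {g | (∀ x, Alb.cub (g x) = Alb.cub x) ∧ g (Alb.ofF (S0 p1 p2)) = Alb.ofF (S0 p1 p2) ∧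
    g (Alb.ofF (S1 p0 p2)) = Alb.ofF (S1 p0 p2) ∧ g (Alb.ofF (S2 p0 p1)) = Alb.ofF (S2 p0 p1)}
  mul_mem' := by
    rintro g h ⟨h1, h2, h3, h4⟩ ⟨h5, h6, h7, h8⟩
    refine ⟨fun x => ?_, ?_, ?_, ?_⟩
    · rw [LinearEquiv.mul_apply, h1, h5]
    · rw [LinearEquiv.mul_apply, h6, h2]
    · rw [LinearEquiv.mul_apply, h7, h3]
    · rw [LinearEquiv.mul_apply, h8, h4]
  one_mem' := ⟨fun _ => rfl, rfl, rfl, rfl⟩
  inv_mem' := by
    rintro g ⟨h1, h2, h3, h4⟩
    have h : ∀ z, g (g⁻¹ z) = z := fun z => by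
      rw [← LinearEquiv.mul_apply, mul_inv_cancel]; rfl
    refine ⟨fun x => ?_, ?_, ?_, ?_⟩
    · rw [← h1, h]
    · apply g.injective
      rw [h, h2]
    · apply g.injective
      rw [h, h3]
    · apply g.injective
      rw [h, h4]

end fixk

end Vale.Agent.P011.E6I
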