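import Vale.Agent.P011.E6.Rel4
import Vale.Agent.P011.E6.Herm
import Vale.Agent.P011.E6.HitF2

/-!
Extension of scalars for linear maps of the spaces of hermitian matrices.
-/

open NumberField

namespace Vale.Agent.P011.E6I.H68

open Vale.Agent.P011.MPQ Vale.Agent.P011.D4 Vale.Agent.P011.D4.Oct Vale.Agent.P011.E6 Alb

section basis

variable {F : Type} [Field F]

/-- Octonions as pairs of quaternions. -/
def octE (a b c : Fˣ) : (Qt a b × Qt a b) ≃ₗ[F] Oct a b c where
  toFun x := ⟨x.1, x.2⟩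
  invFun x := (x.fst, x.snd)
  left_inv _ := rfl
  right_inv _ := rfl
  map_add' _ _ := rfl
  map_smul' _ _ := rfl

/-- Hermitian matrices as tuples. -/
def albE (a b c : Fˣ) : ((F × F × F) × (Oct a b c × Oct a b c × Oct a b c)) ≃ₗ[F] Alb a b c where
  toFun x := ⟨x.1.1, x.1.2.1, x.1.2.2, x.2.1, x.2.2.1, x.2.2.2⟩
  invFun x := ((x.d1, x.d2, x.d3), (x.x1, x.x2, x.x3))
  left_inv _ := rfl
  right_inv _ := rfl
  map_add' _ _ := rfl
  map_smul' _ _ := rfl

/-- The basis of the octonion algebra. -/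
noncomputable def octB (a b c : Fˣ) : Module.Basis (Fin 4 ⊕ Fin 4) F (Oct a b c) :=
  ((QuaternionAlgebra.basisOneIJK (a : F) 0 (b : F)).prod
    (QuaternionAlgebra.basisOneIJK (a : F) 0 (b : F))).map (octE a b c)

/-- The basis of the space of hermitian matrices. -/
noncomputable def albB (a b c : Fˣ) :
    Module.Basis ((Unit ⊕ (Unit ⊕ Unit)) ⊕
      ((Fin 4 ⊕ Fin 4) ⊕ ((Fin 4 ⊕ Fin 4) ⊕ (Fin 4 ⊕ Fin 4)))) F (Alb a b c) :=
  (((Module.Basis.singleton Unit F).prod ((Module.Basis.singleton Unit F).prod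
    (Module.Basis.singleton Unit F))).prod
    ((octB a b c).prod ((octB a b c).prod (octB a b c)))).map (albE a b c)

theorem octB_inl (a b c : Fˣ) (i : Fin 4) : octB a b c (Sum.inl i) =
    ⟨QuaternionAlgebra.basisOneIJK (a : F) 0 (b : F) i, 0⟩ := by
  simp [octB]
  rfl

theorem octB_inr (a b c : Fˣ) (i : Fin 4) : octB a b c (Sum.inr i) =
    ⟨0, QuaternionAlgebra.basisOneIJK (a : F) 0 (b : F) i⟩ := by
  simp [octB]
  rfl

theorem qtB_eq (a b : F) (i : Fin 4) : QuaternionAlgebra.basisOneIJK a 0 b i =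
    (⟨(Pi.single i 1 : Fin 4 → F) 0, (Pi.single i 1 : Fin 4 → F) 1,
      (Pi.single i 1 : Fin 4 → F) 2, (Pi.single i 1 : Fin 4 → F) 3⟩ :
      QuaternionAlgebra F a 0 b) := by
  simp [QuaternionAlgebra.basisOneIJK]

theorem albB_1 (a b c : Fˣ) : albB a b c (Sum.inl (Sum.inl ())) = e1 := by
  simp [albB]
  rfl

theorem albB_2 (a b c : Fˣ) : albB a b c (Sum.inl (Sum.inr (Sum.inl ()))) = e2 := by
  simp [albB]
  rfl

theorem albB_3 (a b c : Fˣ) : albB a b c (Sum.inl (Sum.inr (Sum.inr ()))) = e3 := by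
  simp [albB]
  rfl

theorem albB_4 (a b c : Fˣ) (i : Fin 4 ⊕ Fin 4) : albB a b c (Sum.inr (Sum.inl i)) =
    ⟨0, 0, 0, octB a b c i, 0, 0⟩ := by
  simp [albB]
  rfl

theorem albB_5 (a b c : Fˣ) (i : Fin 4 ⊕ Fin 4) : albB a b c (Sum.inr (Sum.inr (Sum.inl i))) =
    ⟨0, 0, 0, 0, octB a b c i, 0⟩ := by
  simp [albB]
  rfl

theorem albB_6 (a b c : Fˣ) (i : Fin 4 ⊕ Fin 4) : albB a b c (Sum.inr (Sum.inr (Sum.inr i))) =
    ⟨0, 0, 0, 0, 0, octB a b c i⟩ := by
  simp [albB]
  rfl

end basis

section up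

variable {k K : Type} [Field k] [Field K] [Algebra k K]

theorem qup_basis (a b : kˣ) (i : Fin 4) :
    qup K (QuaternionAlgebra.basisOneIJK (a : k) 0 (b : k) i : Qt a b) =
      QuaternionAlgebra.basisOneIJK (up K a : K) 0 (up K b : K) i := by
  rw [qtB_eq, qtB_eq]
  apply QuaternionAlgebra.ext <;> simp [qup, Pi.single_apply]

theorem oup_octB (a b c : kˣ) (i : Fin 4 ⊕ Fin 4) :
    oup K (octB a b c i) = octB (up K a) (up K b) (up K c) i := by
  rcases i with i | i
  · rw [octB_inl, octB_inl, oup, qup_basis]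
    simp
  · rw [octB_inr, octB_inr, oup, qup_basis]
    simp

theorem oup_zero' {a b c : kˣ} : oup K (0 : Oct a b c) = 0 := by
  apply Oct.ext <;> simp [oup]

theorem aup_albB (a b c : kˣ) (i : (Unit ⊕ (Unit ⊕ Unit)) ⊕
    ((Fin 4 ⊕ Fin 4) ⊕ ((Fin 4 ⊕ Fin 4) ⊕ (Fin 4 ⊕ Fin 4)))) :
    aup K (albB a b c i) = albB (up K a) (up K b) (up K c) i := by
  rcases i with (u | u | u) | (i | i | i)
  · cases u
    rw [albB_1, albB_1]
    simp [aup, e1, oup_zero']
  · cases u
    rw [albB_2, albB_2]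
    simp [aup, e2, oup_zero']
  · cases u
    rw [albB_3, albB_3]
    simp [aup, e3, oup_zero']
  · rw [albB_4, albB_4]
    simp [aup, oup_zero', oup_octB]
  · rw [albB_5, albB_5]
    simp [aup, oup_zero', oup_octB]
  · rw [albB_6, albB_6]
    simp [aup, oup_zero', oup_octB]

theorem exists_extL {a b c : kˣ} (g : Alb a b c →ₗ[k] Alb a b c) :
    ∃ G : AlbL K a b c →ₗ[K] AlbL K a b c, ∀ x, G (aup K x) = aup K (g x) := by
  let G : AlbL K a b c →ₗ[K] AlbL K a b c :=
    (albB (up K a) (up K b) (up K c)).constr K fun i => aup K (g (albB a b c i))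
  refine ⟨G, fun x => ?_⟩
  have h : ∀ i, G (aup K (albB a b c i)) = aup K (g (albB a b c i)) := fun i => by
    rw [aup_albB]
    exact Module.Basis.constr_basis _ _ _ _
  have hx : x ∈ Submodule.span k (Set.range (albB a b c)) := by
    rw [(albB a b c).span_eq]
    trivial
  induction hx using Submodule.span_induction with
  | mem y hy =>
    obtain ⟨i, rfl⟩ := hy
    exact h i
  | zero => rw [aup_zero, map_zero, map_zero, aup_zero]
  | add y z _ _ hy hz => rw [aup_add, map_add, map_add, aup_add, hy, hz]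
  | smul t y _ hy => rw [aup_smul, map_smul, map_smul, aup_smul, hy]

/-- The extension of scalars of a linear automorphism. -/
theorem exists_extE {a b c : kˣ} (g : Alb a b c ≃ₗ[k] Alb a b c) :
    ∃ G : AlbL K a b c ≃ₗ[K] AlbL K a b c, ∀ x, G (aup K x) = aup K (g x) := by
  obtain ⟨G, hG⟩ := exists_extL (K := K) (g : Alb a b c →ₗ[k] Alb a b c)
  obtain ⟨G', hG'⟩ := exists_extL (K := K) (g.symm : Alb a b c →ₗ[k] Alb a b c)
  have h1 : G ∘ₗ G' = LinearMap.id := by
    apply Rl.alb_unique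
    intro x
    rw [LinearMap.comp_apply, hG', hG, LinearMap.id_apply]
    exact congrArg _ (g.apply_symm_apply x)
  have h2 : G' ∘ₗ G = LinearMap.id := by
    apply Rl.alb_unique
    intro x
    rw [LinearMap.comp_apply, hG, hG', LinearMap.id_apply]
    exact congrArg _ (g.symm_apply_apply x)
  exact ⟨LinearEquiv.ofLinear G G' h1 h2, hG⟩

/-- The trilinear form as a linear map in the first variable. -/
def triL {F : Type} [Field F] {a b c a' b' c' : Fˣ} (f : Alb a b c →ₗ[F] Alb a' b' c')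
    (y z : Alb a' b' c') : Alb a b c →ₗ[F] F where
  toFun x := tf (cross (f x) y) z
  map_add' x x' := by rw [map_add, cross_add_left, tf_add_left]
  map_smul' t x := by rw [map_smul, cross_smul_left, tf_smul_left, RingHom.id_apply, smul_eq_mul]

theorem tri_perm {F : Type} [Field F] {a b c : Fˣ} (x y z : Alb a b c) :
    tf (cross x y) z = tf (cross y z) x := by
  rw [tf_cross, tf_comm]

/-- The cubic norm is preserved by the extension. -/
theorem cub_ext [CharZero k] {a b c : kˣ} {g : Alb a b c ≃ₗ[k] Alb a b c}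
    (hg : ∀ x, cub (g x) = cub x) {G : AlbL K a b c ≃ₗ[K] AlbL K a b c}
    (hG : ∀ x, G (aup K x) = aup K (g x)) (x : AlbL K a b c) : cub (G x) = cub x := by
  have : CharZero K := charZero_of_injective_algebraMap (algebraMap k K).injective
  have h0 : ∀ x y z : Alb a b c, tf (cross (G (aup K x)) (G (aup K y))) (G (aup K z)) =
      tf (cross (aup K x) (aup K y)) (aup K z) := by
    intro x y z
    rw [hG, hG, hG, cross_aup, cross_aup, tf_aup, tf_aup, tf_cross_map hg]
  have h1 : ∀ (x : AlbL K a b c) (y z : Alb a b c), tf (cross (G x) (G (aup K y))) (G (aup K z)) =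
      tf (cross x (aup K y)) (aup K z) := by
    intro x y z
    have h := Rl.alb_unique (f := triL (G : AlbL K a b c →ₗ[K] AlbL K a b c) (G (aup K y))
      (G (aup K z))) (g := triL LinearMap.id (aup K y) (aup K z)) (fun x => h0 x y z)
    exact congrArg (fun f : AlbL K a b c →ₗ[K] K => f x) h
  have h2 : ∀ (x y : AlbL K a b c) (z : Alb a b c), tf (cross (G x) (G y)) (G (aup K z)) =
      tf (cross x y) (aup K z) := by
    intro x y z
    have h := Rl.alb_unique (f := triL (G : AlbL K a b c →ₗ[K] AlbL K a b c) (G (aup K z))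
      (G x)) (g := triL LinearMap.id (aup K z) x) (fun y => by
        change tf (cross (G (aup K y)) (G (aup K z))) (G x) = tf (cross (aup K y) (aup K z)) x
        exact (tri_perm _ _ _).symm.trans ((h1 _ _ _).trans (tri_perm _ _ _)))
    have h' : tf (cross (G y) (G (aup K z))) (G x) = tf (cross y (aup K z)) x :=
      congrArg (fun f : AlbL K a b c →ₗ[K] K => f y) h
    exact (tri_perm _ _ _).trans (h'.trans (tri_perm _ _ _).symm)
  have h3 : ∀ x y z : AlbL K a b c, tf (cross (G x) (G y)) (G z) = tf (cross x y) z := by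
    intro x y z
    have h := Rl.alb_unique (f := triL (G : AlbL K a b c →ₗ[K] AlbL K a b c) (G x)
      (G y)) (g := triL LinearMap.id x y) (fun z => by
        change tf (cross (G (aup K z)) (G x)) (G y) = tf (cross (aup K z) x) y
        exact (tri_perm _ _ _).trans ((h2 _ _ _).trans (tri_perm _ _ _).symm))
    have h' : tf (cross (G z) (G x)) (G y) = tf (cross z x) y :=
      congrArg (fun f : AlbL K a b c →ₗ[K] K => f z) h
    exact (tri_perm _ _ _).symm.trans (h'.trans (tri_perm _ _ _))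
  have h4 := h3 x x x
  rw [Alb.cross_self, Alb.cross_self, tf_smul_left, tf_smul_left, tf_adj_self, tf_adj_self] at h4
  have h6 : (6 : K) ≠ 0 := by norm_num
  apply mul_left_cancel₀ h6
  linear_combination h4

end up

end Vale.Agent.P011.E6I.H68
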