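import Vale.Agent.P011.E6I.H68.Fk4
import Vale.Agent.P011.D4.Asm3
import Vale.Agent.P011.D4.Gal

/-!
The pointwise stabilizer of a cubic field in the group of type `E₆` over the ground field has no
proper subgroup of finite index.
-/

open NumberField Polynomial

namespace Vale.Agent.P011.E6I

open Vale.Agent.P011.MPQ Vale.Agent.P011.D4 Vale.Agent.P011.D4.Oct Vale.Agent.P011.E6 Alb

namespace H68

section tower

variable {k L M : Type} [Field k] [Field L] [Field M] [Algebra k L] [Algebra k M] [Algebra L M]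
  [IsScalarTower k L M]

/-- The three conjugates of a generator of a cubic extension. -/
theorem exists_cjg {E : Type} [Field E] [Algebra k E] [Algebra E M] {ρ : M ≃ₐ[k] M}
    (hU : SetU k E M ρ (Inv k L M)) {p0 p1 p2 : k} {θ : L} (hθ : ∀ t : k, algebraMap k L t ≠ θ)
    (hp : θ ^ 3 + algebraMap k L p2 * θ ^ 2 + algebraMap k L p1 * θ + algebraMap k L p0 = 0) :
    ∃ x, Cjg ρ (Inv k L M) p0 p1 p2 x := by
  obtain ⟨y, hy⟩ : ∃ y, y = algebraMap L M θ := ⟨_, rfl⟩
  have hi : ∀ ι ∈ Inv k L M, ι y = y := fun ι hι => by rw [hy, hι.2]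
  have hne : ρ y ≠ y := fun h => by
    obtain ⟨t, ht⟩ := hU.fixk y h hi
    apply hθ t
    apply (algebraMap L M).injective
    rw [← IsScalarTower.algebraMap_apply, ht, hy]
  have hne2 : ρ (ρ y) ≠ ρ y := fun h => hne (ρ.injective h)
  have hne3 : y ≠ ρ (ρ y) := fun h => hne (by
    conv_lhs => rw [h]
    rw [hU.r3])
  have hi1 : ∀ ι ∈ Inv k L M, ι (ρ y) = ρ (ρ y) := fun ι hι => by
    have h := hU.iri ι hι y
    rwa [hi ι hι] at h
  have hi2 : ∀ ι ∈ Inv k L M, ι (ρ (ρ y)) = ρ y := fun ι hι => by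
    rw [← hi1 ι hι, hU.ii ι hι]
  have hA : ∀ t : k, algebraMap L M (algebraMap k L t) = algebraMap k M t := fun t =>
    (IsScalarTower.algebraMap_apply k L M t).symm
  have q0 : y ^ 3 + algebraMap k M p2 * y ^ 2 + algebraMap k M p1 * y + algebraMap k M p0 = 0 := by
    have h := congrArg (algebraMap L M) hp
    simpa only [map_add, map_mul, map_pow, map_zero, hA, ← hy] using h
  have q1 : (ρ y) ^ 3 + algebraMap k M p2 * (ρ y) ^ 2 + algebraMap k M p1 * ρ y +
      algebraMap k M p0 = 0 := by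
    have h := congrArg ρ q0
    simpa only [map_add, map_mul, map_pow, map_zero, ρ.commutes] using h
  have q2 : (ρ (ρ y)) ^ 3 + algebraMap k M p2 * (ρ (ρ y)) ^ 2 + algebraMap k M p1 * ρ (ρ y) +
      algebraMap k M p0 = 0 := by
    have h := congrArg ρ q1
    simpa only [map_add, map_mul, map_pow, map_zero, ρ.commutes] using h
  have f1 : y ^ 2 + y * ρ y + (ρ y) ^ 2 + algebraMap k M p2 * (y + ρ y) + algebraMap k M p1 = 0 :=
    mul_left_cancel₀ (sub_ne_zero.2 hne) (by linear_combination q1 - q0)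
  have f2 : y ^ 2 + y * ρ (ρ y) + (ρ (ρ y)) ^ 2 + algebraMap k M p2 * (y + ρ (ρ y)) +
      algebraMap k M p1 = 0 :=
    mul_left_cancel₀ (sub_ne_zero.2 hne3) (by linear_combination q0 - q2)
  have g2 : algebraMap k M p2 = -(y + ρ (ρ y) + ρ y) :=
    mul_left_cancel₀ (sub_ne_zero.2 hne2) (by linear_combination f2 - f1)
  refine ⟨![y, ρ (ρ y), ρ y], ?_⟩
  exact
    { r0 := rfl
      r1 := hU.r3 y
      r2 := rfl
      i0 := hi
      i1 := hi2
      i2 := hi1
      h01 := hne3
      h02 := hne.symm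
      h12 := hne2
      e2 := g2
      e1 := by
        change algebraMap k M p1 = y * ρ (ρ y) + ρ (ρ y) * ρ y + ρ y * y
        linear_combination f1 - (y + ρ y) * g2
      e0 := by
        change algebraMap k M p0 = -(y * ρ (ρ y) * ρ y)
        linear_combination q0 - y * f1 - (y ^ 2 - y * (y + ρ y)) * g2 }

/-- An automorphism of order three of the normal closure. -/
theorem exists_rho [CharZero k] [FiniteDimensional k M] [IsNormalClosure k L M]
    (h3 : Module.finrank k L = 3) : ∃ ρ : M ≃ₐ[k] M, ρ ≠ 1 ∧ ∀ m, ρ (ρ (ρ m)) = m := by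
  have : Normal k M := IsNormalClosure.normal (K := L)
  have : IsGalois k M := { }
  have hf : Nat.card (M ≃ₐ[k] M) = Module.finrank k M := IsGalois.card_aut_eq_finrank k M
  have hd : 3 ∣ Nat.card (M ≃ₐ[k] M) := by
    rw [hf, ← Module.finrank_mul_finrank k L M, h3]
    exact dvd_mul_right _ _
  have : Fact (Nat.Prime 3) := ⟨Nat.prime_three⟩
  obtain ⟨ρ, hρ⟩ := exists_prime_orderOf_dvd_card' 3 hd
  refine ⟨ρ, fun h => ?_, fun m => ?_⟩
  · rw [h, orderOf_one] at hρ
    norm_num at hρ
  · have h := pow_orderOf_eq_one ρ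
    rw [hρ] at h
    have h1 := congrArg (fun g : M ≃ₐ[k] M => g m) h
    simpa [pow_succ] using h1

/-- The theorem, for a given normal closure. -/
theorem top_tower [NumberField k] [FiniteDimensional k M] [IsNormalClosure k L M]
    (h3 : Module.finrank k L = 3) {a b c : kˣ} (hdiv : Division a b c) {p0 p1 p2 : k} {θ : L}
    (hθ : ∀ t : k, algebraMap k L t ≠ θ)
    (hp : θ ^ 3 + algebraMap k L p2 * θ ^ 2 + algebraMap k L p1 * θ + algebraMap k L p0 = 0)
    (N : Subgroup (FixK p0 p1 p2 a b c)) (hN : N.index ≠ 0) : N = ⊤ := by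
  have hM : NumberField M := NumberField.of_module_finite k M
  obtain ⟨ρ, hρ, h1⟩ := exists_rho (k := k) (L := L) (M := M) h3
  obtain ⟨E, hU⟩ := Gl.exists_setU (L := L) h3 hρ h1
  have hE : NumberField E := NumberField.of_module_finite k E
  obtain ⟨x, hx⟩ := exists_cjg hU hθ hp
  exact top_of_top hU hx (fun S hS => tri_top hU hdiv S hS) N hN

end tower

end H68

/-- **The stabilizer of a cubic field has no proper subgroup of finite index.** -/
theorem fixK_top {k : Type} [Field k] [NumberField k] {a b c : kˣ} (hdiv : Division a b c)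
    {p0 p1 p2 : k} (hirr : Irreducible (X ^ 3 + C p2 * X ^ 2 + C p1 * X + C p0 : k[X]))
    (N : Subgroup (FixK p0 p1 p2 a b c)) (hN : N.index ≠ 0) : N = ⊤ := by
  set p : k[X] := X ^ 3 + C p2 * X ^ 2 + C p1 * X + C p0 with hp
  have hdeg : p.natDegree = 3 := by
    rw [hp]
    compute_degree!
  have : Fact (Irreducible p) := ⟨hirr⟩
  have hfin : FiniteDimensional k (AdjoinRoot p) := (AdjoinRoot.powerBasis hirr.ne_zero).finite
  have h3 : Module.finrank k (AdjoinRoot p) = 3 := by
    rw [(AdjoinRoot.powerBasis hirr.ne_zero).finrank, AdjoinRoot.powerBasis_dim, hdeg]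
  have hroot : Polynomial.aeval (AdjoinRoot.root p) p = 0 := by
    rw [AdjoinRoot.aeval_eq, AdjoinRoot.mk_self]
  have hθ : ∀ t : k, algebraMap k (AdjoinRoot p) t ≠ AdjoinRoot.root p := by
    intro t ht
    rw [← ht, Polynomial.aeval_algebraMap_apply] at hroot
    have h1 : p.IsRoot t := by
      have h2 : algebraMap k (AdjoinRoot p) (Polynomial.aeval t p) =
          algebraMap k (AdjoinRoot p) 0 := by rw [hroot, map_zero]
      have h4 := (algebraMap k (AdjoinRoot p)).injective h2
      rwa [Polynomial.coe_aeval_eq_eval] at h4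
    have h5 := Polynomial.degree_eq_one_of_irreducible_of_root hirr h1
    rw [Polynomial.degree_eq_natDegree hirr.ne_zero, hdeg] at h5
    norm_num at h5
  have hp' : (AdjoinRoot.root p) ^ 3 + algebraMap k _ p2 * (AdjoinRoot.root p) ^ 2 +
      algebraMap k _ p1 * AdjoinRoot.root p + algebraMap k _ p0 = 0 := by
    have h := hroot
    conv at h =>
      lhs
      arg 2
      rw [hp]
    simpa using h
  have hac : IsAlgClosure k (AlgebraicClosure (AdjoinRoot p)) :=
    ⟨inferInstance, Algebra.IsAlgebraic.trans k (AdjoinRoot p) _⟩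
  have hn : Normal k (AlgebraicClosure (AdjoinRoot p)) := IsAlgClosure.normal k _
  have hne : Nonempty (AdjoinRoot p →ₐ[k] AlgebraicClosure (AdjoinRoot p)) :=
    ⟨IsScalarTower.toAlgHom k _ _⟩
  exact H68.top_tower (L := AdjoinRoot p)
    (M := IntermediateField.normalClosure k (AdjoinRoot p) (AlgebraicClosure (AdjoinRoot p)))
    h3 hdiv hθ hp' N hN

end Vale.Agent.P011.E6I
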