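import Vale.Agent.P011.E6I.H68.Ext
import Vale.Agent.P011.E6I.H68.FkDef
import Vale.Agent.P011.D4.Orbit

/-!
The linear map of the hermitian matrices attached to an automorphism of the cyclic composition.
-/

open NumberField

namespace Vale.Agent.P011.E6I.H68

open Vale.Agent.P011.MPQ Vale.Agent.P011.D4 Vale.Agent.P011.D4.Oct Vale.Agent.P011.E6 Alb

section amap

variable {k M : Type} [Field k] [Field M] [Algebra k M] {a b c : kˣ}

theorem qmap_symm (σ : M ≃ₐ[k] M) {a b : kˣ} (x : Qt (up M a) (up M b)) :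
    qmap σ (qmap σ.symm x) = x ∧ qmap σ.symm (qmap σ x) = x := by
  constructor <;> apply QuaternionAlgebra.ext <;> simp [qmap]

theorem omap_symm (σ : M ≃ₐ[k] M) (x : OctL M a b c) :
    omap σ (omap σ.symm x) = x ∧ omap σ.symm (omap σ x) = x :=
  ⟨Oct.ext (qmap_symm σ _).1 (qmap_symm σ _).1, Oct.ext (qmap_symm σ _).2 (qmap_symm σ _).2⟩

theorem amap_symm (σ : M ≃ₐ[k] M) (x : AlbL M a b c) :
    amap σ (amap σ.symm x) = x ∧ amap σ.symm (amap σ x) = x := by
  constructor
  · exact Alb.ext (σ.apply_symm_apply _) (σ.apply_symm_apply _) (σ.apply_symm_apply _)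
      (omap_symm σ _).1 (omap_symm σ _).1 (omap_symm σ _).1
  · exact Alb.ext (σ.symm_apply_apply _) (σ.symm_apply_apply _) (σ.symm_apply_apply _)
      (omap_symm σ _).2 (omap_symm σ _).2 (omap_symm σ _).2

theorem amap_aup' (σ : M ≃ₐ[k] M) (x : Alb a b c) : amap σ (aup M x) = aup M x :=
  Alb.ext (σ.commutes _) (σ.commutes _) (σ.commutes _) (omap_oup σ _) (omap_oup σ _)
    (omap_oup σ _)

/-- The extension of a map over the ground field commutes with the Galois action. -/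
theorem ext_amap {g : Alb a b c → Alb a b c} {G : AlbL M a b c ≃ₗ[M] AlbL M a b c}
    (hG : ∀ x, G (aup M x) = aup M (g x)) (σ : M ≃ₐ[k] M) (x : AlbL M a b c) :
    G (amap σ x) = amap σ (G x) := by
  let f : AlbL M a b c →ₗ[M] AlbL M a b c :=
    { toFun := fun x => amap σ.symm (G (amap σ x))
      map_add' := fun x y => by rw [amap_add, map_add, amap_add]
      map_smul' := fun t x => by
        rw [amap_smul, map_smul, amap_smul, RingHom.id_apply, σ.symm_apply_apply] }
  have h : f = (G : AlbL M a b c →ₗ[M] AlbL M a b c) := by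
    apply Rl.alb_unique
    intro x
    change amap σ.symm (G (amap σ (aup M x))) = G (aup M x)
    rw [amap_aup', hG, amap_aup']
  have h1 : amap σ.symm (G (amap σ x)) = G x := congrArg (fun f : AlbL M a b c →ₗ[M] _ => f x) h
  rw [← h1, (amap_symm σ _).1]

end amap

section hat

variable {k M : Type} [Field k] [Field M] [Algebra k M] {a b c : kˣ} (ρ : M ≃ₐ[k] M)

/-- The map of the hermitian matrices attached to an automorphism of the cyclic composition. -/
def hat (T : OctL M a b c → OctL M a b c) (Y : AlbL M a b c) : AlbL M a b c :=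
  ⟨Y.d1, Y.d2, Y.d3, T Y.x1, omap ρ (omap ρ (T (omap ρ Y.x2))),
    omap ρ (T (omap ρ (omap ρ Y.x3)))⟩

/-- The Galois action in the coordinates of the frame: the element of order three. -/
def rr (Y : AlbL M a b c) : AlbL M a b c :=
  ⟨ρ Y.d2, ρ Y.d3, ρ Y.d1, omap ρ Y.x2, omap ρ Y.x3, omap ρ Y.x1⟩

/-- The Galois action in the coordinates of the frame: the elements of order two. -/
def ri (ι : M ≃ₐ[k] M) (Y : AlbL M a b c) : AlbL M a b c :=
  ⟨ι Y.d1, ι Y.d3, ι Y.d2, invo ι Y.x1, invo ι Y.x3, invo ι Y.x2⟩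

variable {ρ} (hρ : ∀ m, ρ (ρ (ρ m)) = m)
include hρ

theorem hat_rr (T : OctL M a b c → OctL M a b c) (Y : AlbL M a b c) :
    hat ρ T (rr ρ Y) = rr ρ (hat ρ T Y) := by
  apply Alb.ext
  · rfl
  · rfl
  · rfl
  · change T (omap ρ Y.x2) = omap ρ (omap ρ (omap ρ (T (omap ρ Y.x2))))
    rw [Orb.omap_cube hρ]
  · rfl
  · change omap ρ (T (omap ρ (omap ρ (omap ρ Y.x1)))) = omap ρ (T Y.x1)
    rw [Orb.omap_cube hρ]

theorem hat_ri {ι : M ≃ₐ[k] M} (hi : ∀ m, ι (ι m) = m) (hiri : ∀ m, ι (ρ (ι m)) = ρ (ρ m))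
    {T : OctL M a b c → OctL M a b c} (hT : ∀ x, T (invo ι x) = invo ι (T x))
    (Y : AlbL M a b c) : hat ρ T (ri ι Y) = ri ι (hat ρ T Y) := by
  have e1 : ∀ m, ρ (ι m) = ι (ρ (ρ m)) := fun m => by rw [← hiri, hi]
  have e2 : ∀ x : OctL M a b c, omap ρ (invo ι x) = invo ι (omap ρ (omap ρ x)) := by
    intro x
    rw [invo, invo, ← omap_star, ← omap_star]
    ext <;> simp [omap, qmap, e1]
  have e3 : ∀ x : OctL M a b c, omap ρ (omap ρ (invo ι x)) = invo ι (omap ρ x) := by
    intro x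
    rw [e2, e2, Orb.omap_cube hρ]
  apply Alb.ext
  · rfl
  · rfl
  · rfl
  · exact hT _
  · change omap ρ (omap ρ (T (omap ρ (invo ι Y.x3)))) = invo ι (omap ρ (T (omap ρ (omap ρ Y.x3))))
    rw [e2, hT, e3]
  · change omap ρ (T (omap ρ (omap ρ (invo ι Y.x2)))) =
      invo ι (omap ρ (omap ρ (T (omap ρ Y.x2))))
    rw [e3, hT, e2]

end hat

end Vale.Agent.P011.E6I.H68
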