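import Vale.Agent.P011.E6I.H68.Fk1

/-!
The maps of the hermitian matrices which fix the diagonal and commute with the Galois action of
the frame come from the automorphisms of the cyclic composition.
-/

open NumberField

namespace Vale.Agent.P011.E6I.H68

open Vale.Agent.P011.MPQ Vale.Agent.P011.D4 Vale.Agent.P011.D4.Oct Vale.Agent.P011.E6 Alb

theorem bil_of_norm' {F : Type} [Field F] {a b c : Fˣ} {T : Oct a b c ≃ₗ[F] Oct a b c}
    (h : ∀ x, norm (T x) = norm x) (x y : Oct a b c) : bil (T x) (T y) = bil x y := by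
  rw [bil, bil, ← map_add, h, h, h]

variable {k M : Type} [Field k] [Field M] [Algebra k M] {a b c : kˣ} {ρ : M ≃ₐ[k] M}
  (hρ : ∀ m, ρ (ρ (ρ m)) = m)

include hρ

theorem norm_tri {T : OctL M a b c ≃ₗ[M] OctL M a b c} (hT : T ∈ Tri ρ a b c)
    (x : OctL M a b c) : norm (T x) = norm x := by
  have h1 := Orb.tri_tri hρ (T x) (T 1)
  rw [← hT, ← hT, Orb.tri_tri hρ, map_smul] at h1
  have h0 : T 1 ≠ 0 := fun h => by
    have h2 : (1 : OctL M a b c) = 0 := T.injective (by rw [h, map_zero])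
    have h3 := congrArg (fun x : OctL M a b c => x.fst.re) h2
    simp at h3
  have h2 : ρ (ρ (norm x)) = ρ (ρ (norm (T x))) := by
    by_contra hne
    apply h0
    have h3 : (ρ (ρ (norm x)) - ρ (ρ (norm (T x)))) • T 1 = 0 := by
      rw [sub_smul, h1, sub_self]
    rw [← one_smul M (T 1), ← inv_mul_cancel₀ (sub_ne_zero.2 hne), mul_smul, h3, smul_zero]
  exact (ρ.injective (ρ.injective h2)).symm

theorem star_eq_tri (y z : OctL M a b c) :
    star (y * z) = tri ρ (omap ρ (omap ρ z)) (omap ρ y) := by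
  rw [tri, star_mul, ← omap_star, ← omap_star, ← omap_star,
    Orb.omap_cube hρ, Orb.omap_cube hρ]

theorem hat_star {T : OctL M a b c ≃ₗ[M] OctL M a b c} (hT : T ∈ Tri ρ a b c)
    (y z : OctL M a b c) : T (star (y * z)) =
      star (omap ρ (omap ρ (T (omap ρ y))) * omap ρ (T (omap ρ (omap ρ z)))) := by
  rw [star_eq_tri hρ, hT, tri, star_mul, ← omap_star, ← omap_star, ← omap_star]

theorem hat_cub {T : OctL M a b c ≃ₗ[M] OctL M a b c} (hT : T ∈ Tri ρ a b c)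
    (Y : AlbL M a b c) : cub (hat ρ T Y) = cub Y := by
  have h1 : bil (T Y.x1 * omap ρ (omap ρ (T (omap ρ Y.x2))) * omap ρ (T (omap ρ (omap ρ Y.x3)))) 1 =
      bil (Y.x1 * Y.x2 * Y.x3) 1 := by
    rw [← tri1, ← hat_star hρ hT, bil_of_norm' (norm_tri hρ hT), tri1]
  simp only [cub, hat]
  rw [h1, norm_tri hρ hT, Orb.norm_omap, Orb.norm_omap, norm_tri hρ hT, Orb.norm_omap, hρ,
    Orb.norm_omap, norm_tri hρ hT, Orb.norm_omap, Orb.norm_omap, hρ]

/-- The converse. -/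
theorem exists_hat [NeZero (2 : M)] {I : Set (M ≃ₐ[k] M)}
    {φ : AlbL M a b c ≃ₗ[M] AlbL M a b c} (h : ∀ x, cub (φ x) = cub x) (h1 : φ e1 = e1)
    (h2 : φ e2 = e2) (h3 : φ e3 = e3) (hr : ∀ Y, φ (rr ρ Y) = rr ρ (φ Y))
    (hi : ∀ ι ∈ I, ∀ Y, φ (ri ι Y) = ri ι (φ Y)) :
    ∃ T ∈ TriU ρ I a b c, ∀ Y, φ Y = hat ρ T Y := by
  obtain ⟨t, t', t'', ht⟩ := exists_t h h1 h2 h3
  have e1 : ∀ x, t (omap ρ x) = omap ρ (t' x) := fun x => by
    have h4 := congrArg Alb.x1 (hr ⟨0, 0, 0, 0, x, 0⟩)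
    rw [ht, ht] at h4
    exact h4
  have e2 : ∀ x, t' (omap ρ x) = omap ρ (t'' x) := fun x => by
    have h4 := congrArg Alb.x2 (hr ⟨0, 0, 0, 0, 0, x⟩)
    rw [ht, ht] at h4
    exact h4
  have e3 : ∀ x, t'' (omap ρ x) = omap ρ (t x) := fun x => by
    have h4 := congrArg Alb.x3 (hr ⟨0, 0, 0, x, 0, 0⟩)
    rw [ht, ht] at h4
    exact h4
  have f3 : ∀ x, t'' x = omap ρ (t (omap ρ (omap ρ x))) := fun x => by
    rw [← e3, Orb.omap_cube hρ]
  have f2 : ∀ x, t' x = omap ρ (omap ρ (t (omap ρ x))) := fun x => by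
    rw [e1, Orb.omap_cube hρ]
  have hφ : ∀ Y, φ Y = hat ρ t Y := fun Y => by
    rw [ht, f2, f3]
    rfl
  have hnorm : ∀ x, norm (t x) = norm x := fun x => by
    have h4 := h ⟨1, 0, 0, x, 0, 0⟩
    rw [ht] at h4
    have h5 : t' 0 = 0 := by rw [f2, omap_zero, map_zero, omap_zero, omap_zero]
    have h6 : t'' 0 = 0 := by rw [f3, omap_zero, omap_zero, map_zero, omap_zero]
    simp only [cub, h5, h6] at h4
    simp only [mul_zero, bil_zero_left, zero_mul, one_mul, sub_zero, add_zero,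
      zero_sub] at h4
    exact neg_injective h4
  have hbil : ∀ x y z, bil (t x * t' y * t'' z) 1 = bil (x * y * z) 1 := fun x y z => by
    have h4 := h ⟨0, 0, 0, x, y, z⟩
    rw [ht] at h4
    simpa [cub] using h4
  have hstar : ∀ y z, t (star (y * z)) = star (t' y * t'' z) := fun y z => by
    rw [← sub_eq_zero]
    apply eq_zero_of_bil
    intro w
    obtain ⟨x, rfl⟩ := t.surjective w
    rw [bil_sub_left, bil_of_norm' hnorm, tri1, tri1, hbil, sub_self]
  refine ⟨t, ⟨fun x y => ?_, fun ι hι x => ?_⟩, hφ⟩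
  · have h4 : tri ρ x y = star (omap ρ (omap ρ y) * omap ρ x) := by
      rw [star_eq_tri hρ, Orb.omap_cube hρ, Orb.omap_cube hρ]
    rw [h4, hstar, f2, f3, Orb.omap_cube hρ, Orb.omap_cube hρ, tri, star_mul, ← omap_star,
      ← omap_star, ← omap_star]
  · have h4 := congrArg Alb.x1 (hi ι hι ⟨0, 0, 0, x, 0, 0⟩)
    rw [ht, ht] at h4
    exact h4

end Vale.Agent.P011.E6I.H68
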