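import Vale.Agent.P011.E6I.H68.Fk2
import Vale.Agent.P011.D4.H369.Alg
import Mathlib.LinearAlgebra.Vandermonde

/-!
The frame attached to the three conjugates of a generator of a cubic field.
-/

open NumberField Matrix

namespace Vale.Agent.P011.E6I.H68

open Vale.Agent.P011.MPQ Vale.Agent.P011.D4 Vale.Agent.P011.D4.Oct Vale.Agent.P011.E6 Alb

variable {k M : Type} [Field k] [Field M] [Algebra k M]

/-- The three conjugates of a generator of the cubic field. -/
structure Cjg (ρ : M ≃ₐ[k] M) (I : Set (M ≃ₐ[k] M)) (p0 p1 p2 : k) (x : Fin 3 → M) : Prop where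
  r0 : ρ (x 0) = x 2
  r1 : ρ (x 1) = x 0
  r2 : ρ (x 2) = x 1
  i0 : ∀ ι ∈ I, ι (x 0) = x 0
  i1 : ∀ ι ∈ I, ι (x 1) = x 2
  i2 : ∀ ι ∈ I, ι (x 2) = x 1
  h01 : x 0 ≠ x 1
  h02 : x 0 ≠ x 2
  h12 : x 1 ≠ x 2
  e2 : algebraMap k M p2 = -(x 0 + x 1 + x 2)
  e1 : algebraMap k M p1 = x 0 * x 1 + x 1 * x 2 + x 2 * x 0
  e0 : algebraMap k M p0 = -(x 0 * x 1 * x 2)

theorem aup_ofF' {a b c : kˣ} (S : Matrix (Fin 3) (Fin 3) k) :
    aup M (Alb.ofF S : Alb a b c) = Alb.ofF (S.map (algebraMap k M)) := by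
  apply Alb.ext
  · rfl
  · rfl
  · rfl
  · simp [aup, Alb.ofF, oup_smul, oup_one]
  · simp [aup, Alb.ofF, oup_smul, oup_one]
  · simp [aup, Alb.ofF, oup_smul, oup_one]

section frame

variable {ρ : M ≃ₐ[k] M} {I : Set (M ≃ₐ[k] M)} {p0 p1 p2 : k} {x : Fin 3 → M}
  (hx : Cjg ρ I p0 p1 p2 x) {a b c : kˣ}

include hx

theorem det_ne : (vandermonde x).det ≠ 0 := by
  rw [det_vandermonde_ne_zero_iff]
  intro i j h
  have h01 := hx.h01
  have h02 := hx.h02
  have h12 := hx.h12
  fin_cases i <;> fin_cases j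
  · rfl
  · exact absurd h h01
  · exact absurd h h02
  · exact absurd h.symm h01
  · rfl
  · exact absurd h h12
  · exact absurd h.symm h02
  · exact absurd h.symm h12
  · rfl

theorem cj_rr (X : AlbL M a b c) :
    cj (vandermonde x) (amap ρ X) = rr ρ (cj (vandermonde x) X) := by
  have h := amap_cj ρ (vandermonde x) X
  have h0 : (vandermonde x).map ρ 0 = vandermonde x 2 := by
    ext j
    simp [vandermonde, hx.r0]
  have h1 : (vandermonde x).map ρ 1 = vandermonde x 0 := by
    ext j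
    simp [vandermonde, hx.r1]
  have h2 : (vandermonde x).map ρ 2 = vandermonde x 1 := by
    ext j
    simp [vandermonde, hx.r2]
  have e : cj ((vandermonde x).map ρ) (amap ρ X) = ⟨dia (vandermonde x 2) (amap ρ X),
      dia (vandermonde x 0) (amap ρ X), dia (vandermonde x 1) (amap ρ X),
      ent (vandermonde x 0) (vandermonde x 1) (amap ρ X),
      ent (vandermonde x 1) (vandermonde x 2) (amap ρ X),
      ent (vandermonde x 2) (vandermonde x 0) (amap ρ X)⟩ := by
    rw [cj, h0, h1, h2]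
  rw [e] at h
  exact Alb.ext (congrArg Alb.d2 h).symm (congrArg Alb.d3 h).symm (congrArg Alb.d1 h).symm
    (congrArg Alb.x2 h).symm (congrArg Alb.x3 h).symm (congrArg Alb.x1 h).symm

theorem cj_ri {ι : M ≃ₐ[k] M} (hι : ι ∈ I) (X : AlbL M a b c) :
    cj (vandermonde x) (amap ι X) = ri ι (cj (vandermonde x) X) := by
  have h := amap_cj ι (vandermonde x) X
  have h0 : (vandermonde x).map ι 0 = vandermonde x 0 := by
    ext j
    simp [vandermonde, hx.i0 ι hι]
  have h1 : (vandermonde x).map ι 1 = vandermonde x 2 := by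
    ext j
    simp [vandermonde, hx.i1 ι hι]
  have h2 : (vandermonde x).map ι 2 = vandermonde x 1 := by
    ext j
    simp [vandermonde, hx.i2 ι hι]
  have e : cj ((vandermonde x).map ι) (amap ι X) = ⟨dia (vandermonde x 0) (amap ι X),
      dia (vandermonde x 2) (amap ι X), dia (vandermonde x 1) (amap ι X),
      ent (vandermonde x 2) (vandermonde x 1) (amap ι X),
      ent (vandermonde x 1) (vandermonde x 0) (amap ι X),
      ent (vandermonde x 0) (vandermonde x 2) (amap ι X)⟩ := by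
    rw [cj, h0, h1, h2]
  rw [e] at h
  have hs : ∀ u v : Fin 3 → M, ∀ y : OctL M a b c, omap ι y = ent u v (amap ι X) →
      ent v u (amap ι X) = invo ι y := by
    intro u v y hy
    rw [invo, omap_star, hy, star_ent]
  exact Alb.ext (congrArg Alb.d1 h).symm (congrArg Alb.d3 h).symm (congrArg Alb.d2 h).symm
    (hs _ _ _ (congrArg Alb.x1 h)) (hs _ _ _ (congrArg Alb.x3 h)) (hs _ _ _ (congrArg Alb.x2 h))

theorem frame0 : cj (vandermonde x) (aup M (ofF (S0 p1 p2) : Alb a b c)) =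
    ⟨(x 0 - x 1) * (x 0 - x 2), (x 1 - x 0) * (x 1 - x 2), (x 2 - x 0) * (x 2 - x 1),
      0, 0, 0⟩ := by
  have hS : ((S0 p1 p2).map (algebraMap k M))ᵀ = (S0 p1 p2).map (algebraMap k M) := by
    rw [← Matrix.transpose_map, S0_transpose]
  rw [aup_ofF', cj_ofF _ _ hS]
  have e1 := hx.e1
  have e2 := hx.e2
  apply Alb.ext <;>
    simp only [ofF, Matrix.mul_apply, Fin.sum_univ_three, vandermonde, S0, Matrix.map_apply,
      Matrix.transpose_apply, Matrix.of_apply, Matrix.cons_val_zero, Matrix.cons_val_one,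
      Matrix.cons_val, map_one, map_zero, e1, e2, Fin.isValue, Fin.val_zero, Fin.val_one,
      Fin.val_two, pow_zero, pow_one]
  · ring
  · ring
  · ring
  all_goals
    rw [← zero_smul M (1 : OctL M a b c)]
    congr 1
    ring

theorem frame1 : cj (vandermonde x) (aup M (ofF (S1 p0 p2) : Alb a b c)) =
    ⟨x 0 * ((x 0 - x 1) * (x 0 - x 2)), x 1 * ((x 1 - x 0) * (x 1 - x 2)),
      x 2 * ((x 2 - x 0) * (x 2 - x 1)), 0, 0, 0⟩ := by
  have hS : ((S1 p0 p2).map (algebraMap k M))ᵀ = (S1 p0 p2).map (algebraMap k M) := by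
    rw [← Matrix.transpose_map, S1_transpose]
  rw [aup_ofF', cj_ofF _ _ hS]
  have e0 := hx.e0
  have e2 := hx.e2
  apply Alb.ext <;>
    simp only [ofF, Matrix.mul_apply, Fin.sum_univ_three, vandermonde, S1, Matrix.map_apply,
      Matrix.transpose_apply, Matrix.of_apply, Matrix.cons_val_zero, Matrix.cons_val_one,
      Matrix.cons_val, map_one, map_zero, map_neg, e0, e2, Fin.isValue, Fin.val_zero, Fin.val_one,
      Fin.val_two, pow_zero, pow_one]
  · ring
  · ring
  · ring
  all_goals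
    rw [← zero_smul M (1 : OctL M a b c)]
    congr 1
    ring

theorem frame2 : cj (vandermonde x) (aup M (ofF (S2 p0 p1) : Alb a b c)) =
    ⟨x 0 ^ 2 * ((x 0 - x 1) * (x 0 - x 2)), x 1 ^ 2 * ((x 1 - x 0) * (x 1 - x 2)),
      x 2 ^ 2 * ((x 2 - x 0) * (x 2 - x 1)), 0, 0, 0⟩ := by
  have hS : ((S2 p0 p1).map (algebraMap k M))ᵀ = (S2 p0 p1).map (algebraMap k M) := by
    rw [← Matrix.transpose_map, S2_transpose]
  rw [aup_ofF', cj_ofF _ _ hS]
  have e0 := hx.e0
  have e1 := hx.e1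
  apply Alb.ext <;>
    simp only [ofF, Matrix.mul_apply, Fin.sum_univ_three, vandermonde, S2, Matrix.map_apply,
      Matrix.transpose_apply, Matrix.of_apply, Matrix.cons_val_zero, Matrix.cons_val_one,
      Matrix.cons_val, map_one, map_zero, map_neg, e0, e1, Fin.isValue, Fin.val_zero, Fin.val_one,
      Fin.val_two, pow_zero, pow_one]
  · ring
  · ring
  · ring
  all_goals
    rw [← zero_smul M (1 : OctL M a b c)]
    congr 1
    ring

end frame

end Vale.Agent.P011.E6I.H68
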