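import Vale.Agent.P011.E6I.H68.Fk3

/-!
The pointwise stabilizer of a cubic field is a quotient of the trialitarian group.
-/

open NumberField Matrix

namespace Vale.Agent.P011.E6I.H68

open Vale.Agent.P011.MPQ Vale.Agent.P011.D4 Vale.Agent.P011.D4.Oct Vale.Agent.P011.E6 Alb

section hat

variable {k M : Type} [Field k] [Field M] [Algebra k M] {a b c : kˣ} {ρ : M ≃ₐ[k] M}

theorem hat_add (T : OctL M a b c ≃ₗ[M] OctL M a b c) (Y Z : AlbL M a b c) :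
    hat ρ T (Y + Z) = hat ρ T Y + hat ρ T Z := by
  apply Alb.ext
  · rfl
  · rfl
  · rfl
  · exact map_add _ _ _
  · simp only [hat, x2_add, omap_add, map_add]
  · simp only [hat, x3_add, omap_add, map_add]

theorem hat_smul (hρ : ∀ m, ρ (ρ (ρ m)) = m) (T : OctL M a b c ≃ₗ[M] OctL M a b c) (t : M)
    (Y : AlbL M a b c) : hat ρ T (t • Y) = t • hat ρ T Y := by
  apply Alb.ext
  · rfl
  · rfl
  · rfl
  · exact map_smul _ _ _
  · simp only [hat, x2_smul, omap_smul, map_smul, hρ]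
  · simp only [hat, x3_smul, omap_smul, map_smul, hρ]

theorem hat_mul (hρ : ∀ m, ρ (ρ (ρ m)) = m) (T T' : OctL M a b c ≃ₗ[M] OctL M a b c)
    (Y : AlbL M a b c) : hat ρ (T * T' : OctL M a b c ≃ₗ[M] OctL M a b c) Y =
      hat ρ T (hat ρ T' Y) := by
  apply Alb.ext
  · rfl
  · rfl
  · rfl
  · rfl
  · simp only [hat, Orb.omap_cube hρ]
    rfl
  · simp only [hat, Orb.omap_cube hρ]
    rfl

theorem hat_one (hρ : ∀ m, ρ (ρ (ρ m)) = m) (Y : AlbL M a b c) :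
    hat ρ (1 : OctL M a b c ≃ₗ[M] OctL M a b c) Y = Y := by
  apply Alb.ext
  · rfl
  · rfl
  · rfl
  · rfl
  · exact Orb.omap_cube hρ _
  · exact Orb.omap_cube hρ _

theorem hat_diag (T : OctL M a b c ≃ₗ[M] OctL M a b c) (r s t : M) :
    hat ρ T (⟨r, s, t, 0, 0, 0⟩ : AlbL M a b c) = ⟨r, s, t, 0, 0, 0⟩ := by
  simp only [hat, omap_zero, map_zero]

end hat

section main

variable {k E M : Type} [Field k] [Field E] [Field M] [Algebra k E] [Algebra k M] [Algebra E M]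
  {ρ : M ≃ₐ[k] M} {I : Set (M ≃ₐ[k] M)} {a b c : kˣ} {p0 p1 p2 : k} {x : Fin 3 → M}

/-- An element over the ground field, in the coordinates of the frame. -/
noncomputable def Ph (x : Fin 3 → M) (X : Alb a b c) : AlbL M a b c :=
  cj (vandermonde x) (aup M X)

theorem Ph_add (X Y : Alb a b c) : Ph x (X + Y) = Ph x X + Ph x Y := by
  rw [Ph, aup_add, cj_add]
  rfl

theorem Ph_smul (t : k) (X : Alb a b c) : Ph x (t • X) = algebraMap k M t • Ph x X := by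
  rw [Ph, aup_smul, cj_smul]
  rfl

theorem Ph_injective (hx : Cjg ρ I p0 p1 p2 x) :
    Function.Injective (Ph x : Alb a b c → AlbL M a b c) := fun _ _ h =>
  aup_injective ((cjE (vandermonde x) (det_ne hx)).injective h)

theorem rr_Ph (hx : Cjg ρ I p0 p1 p2 x) (X : Alb a b c) : rr ρ (Ph x X) = Ph x X := by
  rw [Ph, ← cj_rr hx, amap_aup']

theorem ri_Ph (hx : Cjg ρ I p0 p1 p2 x) {ι : M ≃ₐ[k] M} (hι : ι ∈ I) (X : Alb a b c) :
    ri ι (Ph x X) = Ph x X := by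
  rw [Ph, ← cj_ri hx hι, amap_aup']

theorem exists_aupU (hU : SetU k E M ρ I) (X : AlbL M a b c) (hX : amap ρ X = X)
    (hI : ∀ ι ∈ I, amap ι X = X) : ∃ Y : Alb a b c, aup M Y = X := by
  obtain ⟨t1, h1⟩ := hU.fixk X.d1 (congrArg Alb.d1 hX) fun ι hι => congrArg Alb.d1 (hI ι hι)
  obtain ⟨t2, h2⟩ := hU.fixk X.d2 (congrArg Alb.d2 hX) fun ι hι => congrArg Alb.d2 (hI ι hι)
  obtain ⟨t3, h3⟩ := hU.fixk X.d3 (congrArg Alb.d3 hX) fun ι hι => congrArg Alb.d3 (hI ι hι)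
  obtain ⟨y1, h4⟩ := H369.exists_oup hU X.x1 (congrArg Alb.x1 hX)
    fun ι hι => congrArg Alb.x1 (hI ι hι)
  obtain ⟨y2, h5⟩ := H369.exists_oup hU X.x2 (congrArg Alb.x2 hX)
    fun ι hι => congrArg Alb.x2 (hI ι hι)
  obtain ⟨y3, h6⟩ := H369.exists_oup hU X.x3 (congrArg Alb.x3 hX)
    fun ι hι => congrArg Alb.x3 (hI ι hι)
  exact ⟨⟨t1, t2, t3, y1, y2, y3⟩, Alb.ext h1 h2 h3 h4 h5 h6⟩

theorem exists_Ph (hU : SetU k E M ρ I) (hx : Cjg ρ I p0 p1 p2 x) {Y : AlbL M a b c}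
    (hr : rr ρ Y = Y) (hi : ∀ ι ∈ I, ri ι Y = Y) : ∃ X : Alb a b c, Ph x X = Y := by
  have hH := det_ne hx
  obtain ⟨X, hX⟩ := exists_aupU hU (cj (vandermonde x)⁻¹ Y) (by
    apply (cjE (vandermonde x) hH).injective
    change cj (vandermonde x) (amap ρ (cj (vandermonde x)⁻¹ Y)) =
      cj (vandermonde x) (cj (vandermonde x)⁻¹ Y)
    rw [cj_rr hx, cj_inv' hH, hr]) (fun ι hι => by
    apply (cjE (vandermonde x) hH).injective
    change cj (vandermonde x) (amap ι (cj (vandermonde x)⁻¹ Y)) =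
      cj (vandermonde x) (cj (vandermonde x)⁻¹ Y)
    rw [cj_ri hx hι, cj_inv' hH, hi ι hι])
  exact ⟨X, by rw [Ph, hX, cj_inv' hH]⟩

theorem exists_Ph_hat (hU : SetU k E M ρ I) (hx : Cjg ρ I p0 p1 p2 x)
    {T : OctL M a b c ≃ₗ[M] OctL M a b c} (hT : T ∈ TriU ρ I a b c) (X : Alb a b c) :
    ∃ X' : Alb a b c, Ph x X' = hat ρ T (Ph x X) := by
  apply exists_Ph hU hx
  · rw [← hat_rr hU.r3, rr_Ph hx]
  · intro ι hι
    rw [← hat_ri hU.r3 (hU.ii ι hι) (hU.iri ι hι) (hT.2 ι hι), ri_Ph hx hι]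

theorem Ph_ofF (hx : Cjg ρ I p0 p1 p2 x) (T : OctL M a b c ≃ₗ[M] OctL M a b c) :
    hat ρ T (Ph x (ofF (S0 p1 p2) : Alb a b c)) = Ph x (ofF (S0 p1 p2)) ∧
    hat ρ T (Ph x (ofF (S1 p0 p2) : Alb a b c)) = Ph x (ofF (S1 p0 p2)) ∧
    hat ρ T (Ph x (ofF (S2 p0 p1) : Alb a b c)) = Ph x (ofF (S2 p0 p1)) := by
  refine ⟨?_, ?_, ?_⟩
  · rw [Ph, frame0 hx, hat_diag]
  · rw [Ph, frame1 hx, hat_diag]
  · rw [Ph, frame2 hx, hat_diag]

/-- From the trialitarian group to the stabilizer. -/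
theorem exists_g (hU : SetU k E M ρ I) (hx : Cjg ρ I p0 p1 p2 x)
    {T : OctL M a b c ≃ₗ[M] OctL M a b c} (hT : T ∈ TriU ρ I a b c) :
    ∃ g ∈ FixK p0 p1 p2 a b c, ∀ X, Ph x (g X) = hat ρ T (Ph x X) := by
  choose f hf using exists_Ph_hat hU hx hT
  choose f' hf' using exists_Ph_hat hU hx (inv_mem hT)
  have hinj := Ph_injective (a := a) (b := b) (c := c) hx
  let g : Alb a b c ≃ₗ[k] Alb a b c :=
    { toFun := f
      invFun := f'
      map_add' := fun X Y => hinj (by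
        rw [hf, Ph_add, hat_add, Ph_add, hf, hf])
      map_smul' := fun t X => hinj (by
        rw [hf, Ph_smul, hat_smul hU.r3, RingHom.id_apply, Ph_smul, hf])
      left_inv := fun X => hinj (by
        rw [hf', hf, ← hat_mul hU.r3, inv_mul_cancel, hat_one hU.r3])
      right_inv := fun X => hinj (by
        rw [hf, hf', ← hat_mul hU.r3, mul_inv_cancel, hat_one hU.r3]) }
  have hg : ∀ X, Ph x (g X) = hat ρ T (Ph x X) := hf
  obtain ⟨h0, h1, h2⟩ := Ph_ofF (a := a) (b := b) (c := c) hx T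
  refine ⟨g, ⟨fun X => ?_, ?_, ?_, ?_⟩, hg⟩
  · have h := congrArg cub (hg X)
    rw [hat_cub hU.r3 hT.1, Ph, Ph, cub_cj, cub_cj, cub_aup, cub_aup] at h
    have h3 : (vandermonde x).det ^ 2 ≠ 0 := pow_ne_zero 2 (det_ne hx)
    exact (algebraMap k M).injective (mul_left_cancel₀ h3 h)
  · exact hinj (by rw [hg, h0])
  · exact hinj (by rw [hg, h1])
  · exact hinj (by rw [hg, h2])

/-- The diagonal idempotents belong to the span of the frame. -/
theorem fix_frame (hx : Cjg ρ I p0 p1 p2 x) {φ : AlbL M a b c ≃ₗ[M] AlbL M a b c}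
    (h0 : φ (Ph x (ofF (S0 p1 p2) : Alb a b c)) = Ph x (ofF (S0 p1 p2)))
    (h1 : φ (Ph x (ofF (S1 p0 p2) : Alb a b c)) = Ph x (ofF (S1 p0 p2)))
    (h2 : φ (Ph x (ofF (S2 p0 p1) : Alb a b c)) = Ph x (ofF (S2 p0 p1))) :
    φ e1 = e1 ∧ φ e2 = e2 ∧ φ e3 = e3 := by
  have key : ∀ (Z : AlbL M a b c) (r s t u : M), u ≠ 0 →
      r • Ph x (ofF (S0 p1 p2) : Alb a b c) + s • Ph x (ofF (S1 p0 p2) : Alb a b c) +
        t • Ph x (ofF (S2 p0 p1) : Alb a b c) = u • Z → φ Z = Z := by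
    intro Z r s t u hu h
    have h3 := congrArg φ h
    rw [map_add, map_add, map_smul, map_smul, map_smul, map_smul, h0, h1, h2, h] at h3
    have h4 := congrArg (fun Y => u⁻¹ • Y) h3
    simp only [smul_smul, inv_mul_cancel₀ hu, one_smul] at h4
    exact h4.symm
  have d01 := sub_ne_zero.2 hx.h01
  have d02 := sub_ne_zero.2 hx.h02
  have d12 := sub_ne_zero.2 hx.h12
  have d10 := sub_ne_zero.2 hx.h01.symm
  have d20 := sub_ne_zero.2 hx.h02.symm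
  have d21 := sub_ne_zero.2 hx.h12.symm
  refine ⟨?_, ?_, ?_⟩
  · apply key e1 (x 1 * x 2) (-(x 1 + x 2)) 1 (((x 0 - x 1) * (x 0 - x 2)) ^ 2)
      (pow_ne_zero 2 (mul_ne_zero d01 d02))
    rw [Ph, Ph, Ph, frame0 hx, frame1 hx, frame2 hx]
    apply Alb.ext <;> simp [e1] <;> ring
  · apply key e2 (x 0 * x 2) (-(x 0 + x 2)) 1 (((x 1 - x 0) * (x 1 - x 2)) ^ 2)
      (pow_ne_zero 2 (mul_ne_zero d10 d12))
    rw [Ph, Ph, Ph, frame0 hx, frame1 hx, frame2 hx]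
    apply Alb.ext <;> simp [e2] <;> ring
  · apply key e3 (x 0 * x 1) (-(x 0 + x 1)) 1 (((x 2 - x 0) * (x 2 - x 1)) ^ 2)
      (pow_ne_zero 2 (mul_ne_zero d20 d21))
    rw [Ph, Ph, Ph, frame0 hx, frame1 hx, frame2 hx]
    apply Alb.ext <;> simp [e3] <;> ring

/-- From the stabilizer to the trialitarian group. -/
theorem exists_T [CharZero k] (hU : SetU k E M ρ I) (hx : Cjg ρ I p0 p1 p2 x)
    {g : Alb a b c ≃ₗ[k] Alb a b c} (hg : g ∈ FixK p0 p1 p2 a b c) :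
    ∃ T ∈ TriU ρ I a b c, ∀ X, Ph x (g X) = hat ρ T (Ph x X) := by
  have : CharZero M := charZero_of_injective_algebraMap (algebraMap k M).injective
  obtain ⟨G, hG⟩ := exists_extE (K := M) g
  obtain ⟨hc, hS0, hS1, hS2⟩ := hg
  have hH := det_ne hx
  let C : AlbL M a b c ≃ₗ[M] AlbL M a b c := cjE (vandermonde x) hH
  let φ : AlbL M a b c ≃ₗ[M] AlbL M a b c := (C.symm.trans G).trans C
  have hφ : ∀ Y, φ (cj (vandermonde x) Y) = cj (vandermonde x) (G Y) := fun Y => by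
    change cj (vandermonde x) (G (C.symm (C Y))) = _
    rw [LinearEquiv.symm_apply_apply]
  have hφP : ∀ X : Alb a b c, φ (Ph x X) = Ph x (g X) := fun X => by
    rw [Ph, hφ, hG]
    rfl
  have hsurj : ∀ Y : AlbL M a b c, ∃ Z, Y = cj (vandermonde x) Z := fun Y =>
    ⟨cj (vandermonde x)⁻¹ Y, (cj_inv' hH Y).symm⟩
  have hcub : ∀ Y, cub (φ Y) = cub Y := fun Y => by
    obtain ⟨Z, rfl⟩ := hsurj Y
    rw [hφ, cub_cj, cub_ext hc hG, cub_cj]
  have hr : ∀ Y, φ (rr ρ Y) = rr ρ (φ Y) := fun Y => by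
    obtain ⟨Z, rfl⟩ := hsurj Y
    rw [← cj_rr hx, hφ, ext_amap hG, cj_rr hx, hφ]
  have hi : ∀ ι ∈ I, ∀ Y, φ (ri ι Y) = ri ι (φ Y) := fun ι hι Y => by
    obtain ⟨Z, rfl⟩ := hsurj Y
    rw [← cj_ri hx hι, hφ, ext_amap hG, cj_ri hx hι, hφ]
  obtain ⟨f1, f2, f3⟩ := fix_frame hx (φ := φ) (by rw [hφP, hS0]) (by rw [hφP, hS1])
    (by rw [hφP, hS2])
  obtain ⟨T, hT, h⟩ := exists_hat hU.r3 hcub f1 f2 f3 hr hi
  exact ⟨T, hT, fun X => by rw [← hφP, h]⟩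

/-- The stabilizer is a quotient of the trialitarian group. -/
theorem top_of_top [CharZero k] (hU : SetU k E M ρ I) (hx : Cjg ρ I p0 p1 p2 x)
    (htop : ∀ S : Subgroup (TriU ρ I a b c), S.index ≠ 0 → S = ⊤)
    (N : Subgroup (FixK p0 p1 p2 a b c)) (hN : N.index ≠ 0) : N = ⊤ := by
  have hinj := Ph_injective (a := a) (b := b) (c := c) hx
  choose f hf hf' using fun T : TriU ρ I a b c => exists_g hU hx T.2
  have huniq : ∀ (g g' : FixK p0 p1 p2 a b c), (∀ X, Ph x (g.1 X) = Ph x (g'.1 X)) → g = g' :=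
    fun g g' h => Subtype.ext (LinearEquiv.ext fun X => hinj (h X))
  let Λ : TriU ρ I a b c →* FixK p0 p1 p2 a b c :=
    { toFun := fun T => ⟨f T, hf T⟩
      map_one' := huniq _ _ fun X => by
        change Ph x (f 1 X) = Ph x X
        rw [hf']
        exact hat_one hU.r3 _
      map_mul' := fun T T' => huniq _ _ fun X => by
        change Ph x (f (T * T') X) = Ph x (f T (f T' X))
        rw [hf', hf', hf']
        exact hat_mul hU.r3 _ _ _ }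
  have hΛ : Function.Surjective Λ := fun g => by
    obtain ⟨T, hT, h⟩ := exists_T hU hx g.2
    refine ⟨⟨T, hT⟩, huniq _ _ fun X => ?_⟩
    rw [h]
    exact hf' ⟨T, hT⟩ X
  have h1 : N.comap Λ = ⊤ := htop _ (by
    rw [Subgroup.index_comap_of_surjective _ hΛ]
    exact hN)
  rw [eq_top_iff]
  intro g _
  obtain ⟨T, rfl⟩ := hΛ g
  have h2 : T ∈ N.comap Λ := h1 ▸ Subgroup.mem_top T
  exact h2

end main

end Vale.Agent.P011.E6I.H68
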